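import Vale.Agent.P022K.G2.SpecA

/-!
# P004F, block REC: reciprocity at level `2 ^ N` over a quadratic field (words and row)
-/

set_option linter.all false

noncomputable section

namespace Vale.Agent.P004F.Rc

open NumberField
open Vale.Agent.P022 Vale.Agent.P022K.G2
open Vale.Agent.P022D.W (dec)
open Vale.Agent.P022.H443 (inP)
open Vale.Agent.P022E.GW (Ov Fb Gn)
open scoped Pointwise

/-- `g` raises the roots of unity of order `2 ^ N` to the power `k` -/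
def Cy (N : ℕ) (g : GQ) (k : ℕ) : Prop := ∀ ζ : Qb, ζ ^ 2 ^ N = 1 → g ζ = ζ ^ k

variable {M : Type} [AddCommGroup M]

/-- a locally constant cocycle of `Γ` for a locally constant action of `Γ` -/
structure Co (Γ : Subgroup GQ) (ρ : GQ → M →+ M) (a : GQ → M) : Prop where
  mul : ∀ g ∈ Γ, ∀ h ∈ Γ, ∀ x, ρ (g * h) x = ρ g (ρ h x)
  co : ∀ g ∈ Γ, ∀ h ∈ Γ, a (g * h) = a g + ρ g (a h)
  lc : ∃ W : Subgroup GQ, IsOpen (W : Set GQ) ∧ ∀ w ∈ Γ, w ∈ W → (∀ x, ρ w x = x) ∧ a w = 0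

/-- `a` is a coboundary on `D` -/
def Tv (D : Subgroup GQ) (ρ : GQ → M →+ M) (a : GQ → M) : Prop :=
  ∃ m, ∀ g ∈ D, a g = ρ g m - m

/-- the action and the cocycle are trivial on `J` -/
def Ur (J : Subgroup GQ) (ρ : GQ → M →+ M) (a : GQ → M) : Prop :=
  ∀ g ∈ J, (∀ x, ρ g x = x) ∧ a g = 0

/-- an inert prime congruent to `-1`, with a Frobenius element and a generator of tame inertia -/
structure Kp (N : ℕ) (Γ : Subgroup GQ) (l : ℕ) (P : Ideal (𝓞 Qb)) (φ τ : GQ) : Prop where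
  ov : Ov l P
  ne : l ≠ 2
  dv : 2 ^ N ∣ l + 1
  fb : Fb l P φ
  gn : Gn l P τ
  ur : inP P ≤ Γ
  out : φ ∉ Γ

/-- the group of the completion acts trivially -/
def Tr (ρ : GQ → M →+ M) (P : Ideal (𝓞 Qb)) (φ : GQ) : Prop :=
  (∀ x, ρ (φ ^ 2) x = x) ∧ ∀ i ∈ inP P, ∀ x, ρ i x = x

/-- **reciprocity**: the weights `w` are odd and depend only on the level, the prime and the
generator of tame inertia -/
def REC : Prop := ∀ N : ℕ, ∃ w : ℕ → GQ → ℕ,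
  (∀ l P τ, Ov l P → l ≠ 2 → Gn l P τ → Odd (w l τ)) ∧
  ∀ (Γ : Subgroup GQ) (A M M' : Type) [AddCommGroup A] [AddCommGroup M] [AddCommGroup M']
    (B : M →+ M' →+ A) (ρ : GQ → M →+ M) (σ : GQ → M' →+ M') (a : GQ → M) (b : GQ → M')
    (L : Finset ℕ) (P : ℕ → Ideal (𝓞 Qb)) (φ τ : ℕ → GQ),
    IsOpen (Γ : Set GQ) → Γ.index = 2 → (∀ v, Γ ⊓ St (ip v) = ⊥) → (∀ x : A, 2 ^ N • x = 0) →
    Co Γ ρ a → Co Γ σ b →
    (∀ g ∈ Γ, ∀ k, Cy N g k → ∀ x y, B (ρ g x) (σ g y) = k • B x y) →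
    (∀ l ∈ L, Kp N Γ l (P l) (φ l) (τ l) ∧ Tr ρ (P l) (φ l) ∧ Tr σ (P l) (φ l)) →
    (∀ p Q, Ov p Q → p ∉ L → ∃ g ∈ Γ, Tv (Γ ⊓ dec (g • Q)) ρ a ∨ Tv (Γ ⊓ dec (g • Q)) σ b ∨
      (p ≠ 2 ∧ Ur (Γ ⊓ inP (g • Q)) ρ a ∧ Ur (Γ ⊓ inP (g • Q)) σ b)) →
    ∑ l ∈ L, w l (τ l) • (B (a (φ l ^ 2)) (b (τ l)) - B (a (τ l)) (b (φ l ^ 2))) = 0

end Vale.Agent.P004F.Rc
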