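import Vale.Agent.P004S.Rec
import Vale.Agent.P022K.Cheb.Main
import Vale.Agent.P022.H297.L3.Inert

/-!
# P004F, block REC: reciprocity at level `2 ^ N` over the rational field (helper25)
-/

set_option linter.all false

noncomputable section

namespace Vale.Agent.P004F.Rc

open NumberField
open Vale.Agent.P022 Vale.Agent.P022K Vale.Agent.P004S Vale.Agent.P004S.Aq
open Vale.Agent.P027M.S (Inert)
open Vale.Agent.P022D.W (dec inP_le_dec)
open Vale.Agent.P022.H443 (inP)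
open Vale.Agent.P022E.GW (Ov Fb Gn)
open Vale.Agent.P022.H853 (cyc)
open Vale.Agent.P004S.Ga (K O Z2 B2 d2 d3 Pl)
open scoped Pointwise

namespace Q

section pw

variable {R : Type} [CommRing R] [IsDomain R] {n : ℕ} [NeZero n] {ζ : R}

theorem pw_nat (h : ζ ^ n = 1) (k : ℕ) : ζ ^ (k : ZMod n).val = ζ ^ k := by
  rw [ZMod.val_natCast, ← pow_eq_pow_mod k h]

theorem pw_add (h : ζ ^ n = 1) (a b : ZMod n) : ζ ^ (a + b).val = ζ ^ a.val * ζ ^ b.val := by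
  rw [← pow_add, ← pw_nat h (a.val + b.val)]
  simp

theorem pw_mul (h : ζ ^ n = 1) (a b : ZMod n) : ζ ^ (a * b).val = (ζ ^ b.val) ^ a.val := by
  rw [← pow_mul, ← pw_nat h (b.val * a.val)]
  simp [mul_comm]

theorem pw_inj (h : IsPrimitiveRoot ζ n) {a b : ZMod n} (e : ζ ^ a.val = ζ ^ b.val) : a = b :=
  ZMod.val_injective n (h.pow_inj (ZMod.val_lt a) (ZMod.val_lt b) e)

end pw

variable {N l : ℕ} {P : Ideal (𝓞 Qb)} {ζ r : Qb} {D : Subgroup GQ}

/-- the fraction -/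
def vv (a : ZMod (2 ^ N)) : K := (2 ^ N)⁻¹ * a.val

variable (N) in
/-- the cyclotomic character at a finite level -/
def ec (g : GQ) : ZMod (2 ^ N) := PadicInt.toZModPow N (cz g)

theorem ec_mul (g h : GQ) : ec N (g * h) = ec N g * ec N h := by simp [ec]

theorem ec_one (h : IsPrimitiveRoot ζ (2 ^ N)) {g : GQ} (e : g ζ = ζ) : ec N g = 1 :=
  pw_inj h (((cz_spec g h.pow_eq_one).symm.trans e).trans (by
    rw [← Nat.cast_one, pw_nat h.pow_eq_one, pow_one]))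

theorem ec_in (h : Ov l P) (h2 : l ≠ 2) {g : GQ} (hg : Inert P g) : ec N g = 1 := by
  rw [ec, show (cz g : ℤ_[2]) = 1 from Subtype.ext (cy_in h h2 hg), map_one]

theorem mem_of {x : K} (a : ℤ_[2]) (h : PadicInt.toZModPow N a = 0) (e : x = (2 ^ N)⁻¹ * a) :
    x ∈ O := O_of ((dv_iff N a).1 h) e

theorem vv_mul (k : ℕ) (a : ZMod (2 ^ N)) : k * vv a ∈ O ↔ k * a = 0 := by
  rw [show k * vv a = (2 ^ N)⁻¹ * ((k * a.val : ℕ) : ℤ_[2]) by
    rw [vv, PadicInt.coe_natCast, Nat.cast_mul]; ring, ← dv_iff]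
  simp

/-- right invariance under an open subgroup -/
def Lc {A : Type} (f : GQ → A) : Prop :=
  ∃ W : Subgroup GQ, IsOpen (W : Set GQ) ∧ ∀ g, ∀ w ∈ W, f (g * w) = f g

theorem Lc.lc {A : Type} [AddGroup A] {f : GQ → A} (h : Lc f) : IsLocallyConstant f :=
  h.elim fun W h => lc_of_open h.1 W.one_mem h.2

theorem ec_lc : Lc (ec N) := (ex_prim N).elim fun ζ h => ⟨_, G2.stab_open ζ, fun g w m => by
  rw [ec_mul, ec_one h m, mul_one]⟩

theorem gen0 {A : Type} [AddCommGroup A] {f : GQ → A} {φ : GQ} (h : Ov l P) (hφ : Fb l P φ)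
    (ad : ∀ g ∈ dec P, ∀ j ∈ dec P, f (g * j) = f g + f j)
    (lc : ∃ W : Subgroup GQ, IsOpen (W : Set GQ) ∧ ∀ w ∈ W, w ∈ dec P → f w = 0)
    (ur : ∀ i, Inert P i → f i = 0) (e : f φ = 0) : ∀ g ∈ dec P, f g = 0 := fun g hg => by
  obtain ⟨W, hW, w⟩ := lc
  obtain ⟨k, s, u, hs, hu, rfl⟩ := P022D.W.dec_gen h.1 h.2.1 h.2.2 hφ hg W hW
  have m := P022D.W.phi_mem h.1 h.2.1 hφ
  have mk := (dec P).pow_mem m k
  have mu : u ∈ dec P := ((dec P).mul_mem_cancel_right mk).1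
    (((dec P).mul_mem_cancel_right (inP_le_dec hs)).1 hg)
  rw [ad _ (mul_mem mu mk) _ (inP_le_dec hs), ad _ mu _ mk, w u hu mu, ur s hs, zero_add, add_zero]
  clear hg mk
  induction k with
  | zero => exact ur _ (inP P).one_mem
  | succ k ih => rw [pow_succ, ad _ (pow_mem m k) _ m, ih, e, add_zero]

/-- cocycles -/
structure Co (k : GQ → ZMod (2 ^ N)) : Prop where
  co : ∀ g h, k (g * h) = k g + ec N g * k h
  lc : Lc k

theorem Co.one {k : GQ → ZMod (2 ^ N)} (h : Co k) : k 1 = 0 := by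
  simpa [ec] using h.co 1 1

theorem kum_co (hζ : IsPrimitiveRoot ζ (2 ^ N)) (r0 : r ≠ 0) {k : GQ → ZMod (2 ^ N)}
    (h : ∀ g : GQ, g r = ζ ^ (k g).val * r) : Co k := by
  have co : ∀ g j, k (g * j) = k g + ec N g * k j := fun g j => pw_inj hζ (mul_right_cancel₀ r0 (by
    rw [← h, AlgEquiv.mul_apply, h j, map_mul, map_pow, cz_spec g hζ.pow_eq_one, h g,
      pw_add hζ.pow_eq_one, pw_mul hζ.pow_eq_one, ec]
    ring))
  refine ⟨co, _, G2.stab_open r, fun g w m => ?_⟩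
  rw [co, pw_inj hζ (b := 0) (mul_right_cancel₀ r0 ((h w).symm.trans (m.trans (by simp)))),
    mul_zero, add_zero]

theorem co_sum (T : Finset ℕ) (b : ℕ → ZMod (2 ^ N)) {k : ℕ → GQ → ZMod (2 ^ N)}
    (h : ∀ l ∈ T, Co (k l)) : Co fun g => ∑ l ∈ T, b l * k l g := by
  refine ⟨fun g j => ?_, ⨅ l : T, (h l l.2).lc.choose, ?_, fun g w m => ?_⟩
  · rw [Finset.mul_sum, ← Finset.sum_add_distrib]
    exact Finset.sum_congr rfl fun l m => by rw [(h l m).co]; ring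
  · rw [Subgroup.coe_iInf]
    exact isOpen_iInter_of_finite fun l => (h l l.2).lc.choose_spec.1
  · exact Finset.sum_congr rfl fun l n => by
      rw [(h l n).lc.choose_spec.2 g w (Subgroup.mem_iInf.1 m ⟨l, n⟩)]

/-- the cup product -/
def cu (χ k : GQ → ZMod (2 ^ N)) (g h : GQ) : K := vv (χ g * (ec N g * k h))

theorem cu_z2 {χ k : GQ → ZMod (2 ^ N)} (ad : ∀ g h, χ (g * h) = χ g + χ h) (lc : Lc χ)
    (h : Co k) : Z2 cy D (cu χ k) := by
  refine ⟨(IsLocallyConstant.comp (f := fun x : GQ × GQ => ((χ x.1, ec N x.1), k x.2))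
    (((lc.lc.prodMk ec_lc.lc).comp_continuous continuous_fst).prodMk
      (h.lc.lc.comp_continuous continuous_snd))
    fun x => vv (x.1.1 * (x.1.2 * x.2))).continuous.continuousOn, fun g _ j _ i _ => ?_⟩
  refine mem_of (N := N) (cz g * (χ j * (ec N j * k i)).val - (χ (g * j) * (ec N (g * j) * k i)).val
    + (χ g * (ec N g * k (j * i))).val - (χ g * (ec N g * k j)).val) ?_ ?_
  · simp only [map_sub, map_add, map_mul, map_natCast, ZMod.natCast_zmod_val, ad, h.co, ec_mul]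
    rw [← ec]
    ring
  · simp only [d3, cu, vv, cy_apply]
    push_cast
    ring

theorem z2_sub' {y z : GQ → GQ → K} (a : Z2 cy D y) (b : Z2 cy D z) :
    Z2 cy D fun g h => y g h - z g h :=
  ⟨a.cont.sub b.cont, fun g hg j hj i hi =>
    O_of (sub_mem (a.coc g hg j hj i hi) (b.coc g hg j hj i hi)) (by simp only [d3]; ring)⟩

theorem b2_sub' {x y z : GQ → GQ → K} (a : B2 cy D y) (b : B2 cy D z)
    (e : ∀ g ∈ D, ∀ h ∈ D, x g h - (y g h - z g h) ∈ O) : B2 cy D x := by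
  obtain ⟨θ, a1, a2⟩ := a
  obtain ⟨η, b1, b2⟩ := b
  exact ⟨fun g => θ g - η g, a1.sub b1, fun g hg j hj => O_of (add_mem (e g hg j hj)
    (sub_mem (a2 g hg j hj) (b2 g hg j hj))) (by simp only [d2]; ring)⟩

theorem b2_zero {x : GQ → GQ → K} (e : ∀ g ∈ D, ∀ h ∈ D, x g h ∈ O) : B2 cy D x :=
  ⟨fun _ => 0, continuousOn_const, fun g hg j hj => O_of (e g hg j hj) (by simp [d2])⟩

theorem pow_z2 {y : GQ → GQ → K} (a : Z2 cy D y) (j : ℕ) : Z2 cy D fun g h => 2 ^ j * y g h :=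
  ⟨continuousOn_const.mul a.cont, fun g hg h hh i hi =>
    O_of (O_mul (O_pow j) (a.coc g hg h hh i hi)) (by simp only [d3]; ring)⟩

theorem pow_b2 {y : GQ → GQ → K} (a : B2 cy D y) (j : ℕ) : B2 cy D fun g h => 2 ^ j * y g h :=
  a.elim fun θ a => ⟨fun g => 2 ^ j * θ g, continuousOn_const.mul a.1, fun g hg h hh =>
    O_of (O_mul (O_pow j) (a.2 g hg h hh)) (by simp only [d2]; ring)⟩

theorem nm_nat (h : Ov l P) {a : ℕ} (n : ¬ l ∣ a) : (a : 𝓞 Qb) ∉ P := fun m =>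
  n (Int.natCast_dvd_natCast.1 (ov_dvd h (a := a) (by exact_mod_cast m)))

theorem nm_pow (h : Ov l P) (h2 : l ≠ 2) : ((2 ^ N : ℕ) : 𝓞 Qb) ∉ P := nm_nat h fun d =>
  h2 ((Nat.prime_dvd_prime_iff_eq h.1 Nat.prime_two).1 (h.1.dvd_of_dvd_pow d))

theorem kum_q (h : Ov l P) {z : 𝓞 Qb} {a e j : ℕ} (n : ¬ l ∣ a) (hr : r ^ 2 ^ N = a) {g : GQ}
    (hg : ∀ x : 𝓞 Qb, g • x - x ^ (2 ^ N * e + 1) ∈ P) (k : g r = (z : Qb) ^ j * r) :
    z ^ j - (a : 𝓞 Qb) ^ e ∈ P := by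
  let R : 𝓞 Qb := ⟨r, IsIntegral.of_pow (n := 2 ^ N) (by positivity)
    (hr ▸ isIntegral_natCast a)⟩
  have e1 : R ^ 2 ^ N = a := RingOfIntegers.ext hr
  have e2 : g • R = z ^ j * R := RingOfIntegers.ext k
  have := hg R
  rw [e2, pow_succ, pow_mul, e1, ← sub_mul] at this
  exact (h.2.1.mem_or_mem this).resolve_right fun m =>
    nm_nat h n (e1 ▸ P.pow_mem_of_mem m _ (by positivity))

theorem kum_in (hζ : IsPrimitiveRoot ζ (2 ^ N)) (h : Ov l P) (h2 : l ≠ 2) {a : ℕ} (n : ¬ l ∣ a)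
    (hr : r ^ 2 ^ N = a) {g : GQ} (hg : Inert P g) {j : ZMod (2 ^ N)} (k : g r = ζ ^ j.val * r) :
    j = 0 := by
  let z : 𝓞 Qb := ⟨ζ, hζ.isIntegral (by positivity)⟩
  have e : z ^ 2 ^ N = 1 := RingOfIntegers.ext hζ.pow_eq_one
  have := P022E.GW.Unr.root_inj h.2.1 (nm_pow (N := N) h h2) (by rw [← pow_mul, mul_comm, pow_mul, e,
    one_pow]) (one_pow _) (pow_zero (a : 𝓞 Qb) ▸ kum_q h (z := z) (e := 0) n hr
      (fun x => by simpa using hg x) k)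
  exact pw_inj hζ ((congrArg Subtype.val this).trans (by rw [ZMod.val_zero, pow_zero]; rfl))

theorem ex_chi [Fact l.Prime] (h : Ov l P) (h2 : l ≠ 2) {e : ℕ} (he : l = 2 ^ N * e + 1)
    {z : 𝓞 Qb} (hz : IsPrimitiveRoot z (2 ^ N)) : ∃ χ : GQ → ZMod (2 ^ N),
    (∀ g j, χ (g * j) = χ g + χ j) ∧ ∀ (g : GQ) (a : ℤ) (j : ZMod (2 ^ N)),
      (cyc l g : ZMod l) = a → (z ^ j.val - (a : 𝓞 Qb) ^ e ∈ P ↔ χ g = j) := by
  have := h.2.1
  have : CharP (𝓞 Qb ⧸ P) l :=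
    (CharP.charP_iff_prime_eq_zero h.1).2 (Ideal.Quotient.eq_zero_iff_mem.2 h.2.2)
  let ι := ZMod.castHom (dvd_refl l) (𝓞 Qb ⧸ P)
  have pz : IsPrimitiveRoot (Ideal.Quotient.mk P z) (2 ^ N) := ⟨by
    rw [← map_pow, hz.pow_eq_one, map_one], fun k hk => hz.dvd_of_pow_eq_one k
      (P022E.GW.Unr.root_inj h.2.1 (nm_pow (N := N) h h2) (by
        rw [← pow_mul, mul_comm, pow_mul, hz.pow_eq_one, one_pow]) (one_pow _)
        (Ideal.Quotient.eq.1 hk))⟩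
  have : ∀ g : GQ, ∃ j : ZMod (2 ^ N), Ideal.Quotient.mk P z ^ j.val = ι (cyc l g) ^ e := fun g => by
    obtain ⟨j, -, hj⟩ := pz.eq_pow_of_pow_eq_one (ξ := ι (cyc l g) ^ e) (by
      rw [← pow_mul, mul_comm, ← map_pow, show 2 ^ N * e = l - 1 by omega,
        ZMod.pow_card_sub_one_eq_one (Units.ne_zero _), map_one])
    exact ⟨j, by rw [pw_nat pz.pow_eq_one, hj]⟩
  choose χ hχ using this
  refine ⟨χ, fun g j => pw_inj pz ?_, fun g a j k => ?_⟩
  · rw [pw_add pz.pow_eq_one, hχ, hχ, hχ, map_mul, Units.val_mul, map_mul, mul_pow]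
  · rw [← Ideal.Quotient.eq, map_pow, map_pow, map_intCast, ← map_intCast ι, ← k, ← hχ]
    exact ⟨fun k => pw_inj pz k.symm, fun k => by rw [k]⟩

theorem ex_g (L : Finset ℕ) (hL : ∀ l ∈ L, l.Prime ∧ l ≠ 2) (hζ : IsPrimitiveRoot ζ (2 ^ N))
    (hr : r ^ 2 ^ N = (2 : ℕ)) : ∃ g : GQ, g ζ = ζ ∧ g r = r ∧
      ∀ l : ℕ, l.Prime → nu l g = if l ∈ L then 1 else 0 := by
  classical
  induction L using Finset.induction_on with
  | empty => exact ⟨1, rfl, rfl, fun l _ => by simp [nu_one]⟩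
  | insert q L n ih =>
    obtain ⟨g, g1, g2, g3⟩ := ih fun l m => hL l (Finset.mem_insert_of_mem m)
    obtain ⟨hq, q2⟩ := hL q (Finset.mem_insert_self _ _)
    obtain ⟨P, o⟩ := GW.Pl.ex_ov hq
    obtain ⟨τ, t1, t2⟩ := G2.ex_tau (p := 2) o q2
    have r0 : r ≠ 0 := fun e => by simp [e] at hr
    obtain ⟨j, -, hj⟩ := hζ.eq_pow_of_pow_eq_one (ξ := τ r / r) (by
      rw [div_pow, ← map_pow, hr, map_natCast, div_self (by norm_num)])
    have k : τ r = ζ ^ (j : ZMod (2 ^ N)).val * r := by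
      rw [pw_nat hζ.pow_eq_one, hj, div_mul_cancel₀ _ r0]
    refine ⟨τ * g, ?_, ?_, fun l hl => ?_⟩
    · rw [AlgEquiv.mul_apply, g1, cz_spec τ hζ.pow_eq_one, ← ec, ec_in o q2 t1, ← Nat.cast_one,
        pw_nat hζ.pow_eq_one, pow_one]
    · rw [AlgEquiv.mul_apply, g2, k, kum_in hζ o q2 (fun d => q2 ((Nat.prime_dvd_prime_iff_eq hq
        Nat.prime_two).1 d)) hr t1 k]
      simp
    · rw [nu_mul, g3 l hl]
      by_cases e : l = q
      · rw [e, ← P004S.Rc.ka_nu hq, t2]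
        simp [n]
      · rw [nu_inert o q2 (fun d => e ((Nat.prime_dvd_prime_iff_eq hq hl).1
          (Int.natCast_dvd_natCast.1 d)).symm) t1]
        simp [e]

theorem fix_of (hζ : IsPrimitiveRoot ζ (2 ^ N)) {g : GQ} (h : g ζ = ζ) {x : Qb}
    (hx : x ^ 2 ^ N = 1) : g x = x := by
  obtain ⟨j, -, rfl⟩ := hζ.eq_pow_of_pow_eq_one hx
  rw [map_pow, h]

theorem ex_p (N : ℕ) (L : Finset ℕ) (hL : ∀ l ∈ L, l.Prime ∧ l ≠ 2) (Q : ℕ → Ideal (𝓞 Qb))
    (hQ : ∀ p, p.Prime → Ov p (Q p)) : ∃ (p e : ℕ) (φ : GQ) (s : Qb), p.Prime ∧ p ≠ 2 ∧ p ∉ L ∧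
      p = 2 ^ N * (2 * e) + 1 ∧ Fb p (Q p) φ ∧ (∀ x : Qb, x ^ 2 ^ N = 1 → φ x = x) ∧
      s ^ 2 ^ N = (2 : ℕ) ∧ φ s = s ∧ ∀ l ∈ L, nu l φ = 1 := by
  classical
  obtain ⟨ζ, hζ⟩ := ex_prim (N + 1)
  obtain ⟨s, hs⟩ := IsAlgClosed.exists_pow_nat_eq ((2 : ℕ) : Qb) (n := 2 ^ (N + 1)) (by positivity)
  obtain ⟨g, a1, a2, a3⟩ := ex_g L hL hζ hs
  obtain ⟨W, hW, le⟩ := G2.ex_lv' (H := MulAction.stabilizer GQ ζ ⊓ MulAction.stabilizer GQ s ⊓
    ⨅ l : L, kn (l : ℕ)) (((G2.stab_open ζ).inter (G2.stab_open s)).inter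
      (show IsOpen ((⨅ l : L, kn (l : ℕ) : Subgroup GQ) : Set GQ) by
        rw [Subgroup.coe_iInf]; exact isOpen_iInter_of_finite fun l => kn_open _))
  obtain ⟨p, φ, hp, pn, ⟨P, o1, o2, f⟩, m⟩ := Cheb.cheb W hW.nrm hW.opn g (insert 2 L)
  obtain ⟨⟨m1, m2⟩, m3⟩ := le m
  have p2 : p ≠ 2 := fun e => pn (e ▸ Finset.mem_insert_self _ _)
  have b1 : φ ζ = ζ := by
    rw [← mul_inv_cancel_left g φ, AlgEquiv.mul_apply, show (g⁻¹ * φ) ζ = ζ from m1, a1]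
  have b2 : φ s = s := by
    rw [← mul_inv_cancel_left g φ, AlgEquiv.mul_apply, show (g⁻¹ * φ) s = s from m2, a2]
  obtain ⟨t, e⟩ := G2.Plc.ab_trans (G2.mem_ab_fp.2 ⟨p, rfl, ⟨hp, o1, o2⟩⟩)
    (G2.mem_ab_fp.2 ⟨p, rfl, hQ p hp⟩)
  obtain ⟨k, hk⟩ : 2 ^ (N + 1) ∣ p - 1 := by
    let z : 𝓞 Qb := ⟨ζ, hζ.isIntegral (by positivity)⟩
    have e : z ^ 2 ^ (N + 1) = 1 := RingOfIntegers.ext hζ.pow_eq_one
    have := f z
    rw [show φ • z = z from RingOfIntegers.ext b1] at this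
    have : ζ = ζ ^ p := congrArg Subtype.val (P022E.GW.Unr.root_inj o1 (nm_pow ⟨hp, o1, o2⟩ p2) e
      (by rw [← pow_mul, mul_comm, pow_mul, e, one_pow]) this)
    refine hζ.dvd_of_pow_eq_one _ (mul_right_cancel₀ (hζ.ne_zero (by positivity)) ?_)
    rw [← pow_succ, Nat.sub_add_cancel hp.one_le, ← this, one_mul]
  have s0 : s ≠ 0 := fun e => by simp [e] at hs
  refine ⟨p, k, t * φ * t⁻¹, s ^ 2, hp, p2, fun n => pn (Finset.mem_insert_of_mem n), by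
    rw [← mul_assoc, ← pow_succ, ← hk, Nat.sub_add_cancel hp.one_le], fun x => ?_, fun x hx => ?_,
    by rw [← pow_mul, ← pow_succ', hs], ?_, fun l n => ?_⟩
  · rw [show Q p = t • P from Sum.inl.inj e, Ideal.mem_pointwise_smul_iff_inv_smul_mem, smul_sub,
      smul_pow', mul_smul, mul_smul, inv_smul_smul]
    exact f _
  · rw [AlgEquiv.mul_apply, AlgEquiv.mul_apply, fix_of hζ b1 (x := t⁻¹ x) (by
      rw [← map_pow, pow_succ, pow_mul, hx, one_pow, map_one]), ← AlgEquiv.mul_apply, mul_inv_cancel,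
      AlgEquiv.one_apply]
  · rw [map_pow, AlgEquiv.mul_apply, AlgEquiv.mul_apply, ← div_mul_cancel₀ (t⁻¹ s) s0, map_mul φ, b2,
      fix_of hζ b1 (x := t⁻¹ s / s) (by
        rw [div_pow, ← map_pow, hs, map_natCast, div_self (by norm_num)]), div_mul_cancel₀ _ s0,
      ← AlgEquiv.mul_apply, mul_inv_cancel, AlgEquiv.one_apply]
  · rw [nu_conj, ← mul_inv_cancel_left g φ, nu_mul, a3 l (hL l n).1, if_pos n,
      show nu l (g⁻¹ * φ) = 0 from Subgroup.mem_iInf.1 m3 ⟨l, n⟩, add_zero]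

end Q

open Q in
/-- **reciprocity over the rational field** -/
theorem recq (N : ℕ) {ζ : Qb} (hζ : IsPrimitiveRoot ζ (2 ^ N)) {y : GQ → GQ → ℚ_[2]}
    (hy : Z2 cy ⊤ y) (L : Finset ℕ) (P : ℕ → Ideal (𝓞 Qb)) (φ : ℕ → GQ)
    (κ u : ℕ → GQ → ZMod (2 ^ N))
    (hL : ∀ l ∈ L, Ov l (P l) ∧ l ≠ 2 ∧ Fb l (P l) (φ l) ∧
      (∃ r : Qb, r ^ 2 ^ N = l ∧ ∀ g : GQ, g r = ζ ^ (κ l g).val * r) ∧
      (∀ g ∈ dec (P l), ∀ h ∈ dec (P l), u l (g * h) = u l g + u l h) ∧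
      (∃ W : Subgroup GQ, IsOpen (W : Set GQ) ∧ ∀ w ∈ W, w ∈ dec (P l) → u l w = 0) ∧
      (∀ i ∈ inP (P l), u l i = 0) ∧
      B2 cy (dec (P l)) fun g h => y g h - (2 ^ N)⁻¹ * ((u l g).val * (cy g * (κ l h).val)))
    (h1 : ∀ p : ℕ, p.Prime → p ∉ L → ∃ Q, Ov p Q ∧ B2 cy (dec Q) y)
    (h0 : ∃ w, B2 cy (G2.St (G2.ip w)) y) : ∑ l ∈ L, u l (φ l) = 0 := by
  classical
  rcases N with _ | m
  · exact Subsingleton.elim (α := ZMod 1) _ _
  rcases L.eq_empty_or_nonempty with rfl | ⟨l0, hl0⟩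
  · rfl
  have : ∀ q : ℕ, ∃ Q, (q ∈ L → Q = P q) ∧
      (q.Prime → Ov q Q ∧ (q ∉ L → B2 cy (dec Q) y)) := fun q => by
    by_cases a : q ∈ L
    · exact ⟨_, fun _ => rfl, fun _ => ⟨(hL q a).1, fun n => absurd a n⟩⟩
    by_cases b : q.Prime
    · exact (h1 q b a).imp fun _ h => ⟨fun n => absurd n a, fun _ => ⟨h.1, fun _ => h.2⟩⟩
    · exact ⟨⊥, fun n => absurd n a, fun n => absurd n b⟩
  choose Q q1 q2 using this
  obtain ⟨w, h0⟩ := h0
  have ov := fun q h => (q2 q h).1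
  obtain ⟨p, e, f, s, hp, p2, pL, he, fb, fx, hs, fs, fn⟩ := ex_p (m + 1) L
    (fun l a => ⟨(hL l a).1.1, (hL l a).2.1⟩) Q ov
  have := Fact.mk hp
  obtain ⟨c, cP, cw, cf⟩ : ∃ c : Ga.Cn, c.P = Q ∧ c.w = w ∧ c.φ p = f := by
    obtain ⟨c, rfl, cw⟩ := P004S.Rc.cn_of Q ov w
    refine ⟨{ c with φ := Function.update c.φ p f, fb := fun q hq => ?_ }, rfl, cw,
      Function.update_self ..⟩
    by_cases a : q = p
    · rw [a, Function.update_self]; exact fb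
    · rw [Function.update_of_ne a]; exact c.fb q hq
  let z : 𝓞 Qb := ⟨ζ, hζ.isIntegral (by positivity)⟩
  obtain ⟨χ, ad, hχ⟩ := ex_chi (ov p hp) p2 he (z := z)
    (IsPrimitiveRoot.of_map_of_injective (f := algebraMap (𝓞 Qb) Qb) hζ RingOfIntegers.coe_injective)
  have nd : ∀ {a b : ℕ}, a.Prime → b.Prime → a ≠ b → ¬ a ∣ b := fun ha hb n d =>
    n ((Nat.prime_dvd_prime_iff_eq ha hb).1 d)
  have cq : ∀ {q k : ℕ} {R : Ideal (𝓞 Qb)} {g : GQ}, Ov q R → q ≠ p →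
      (∀ x : 𝓞 Qb, g • x - x ^ k ∈ R) → (cyc p g : ZMod p) = (k : ℤ) := fun o n h => by
    have := (ZMod.natCast_eq_natCast_iff _ _ _).2
      (H853.cyc_of_pow (dvd_refl p) o.2.1 (nm_nat o (nd o.1 hp n)) h)
    rwa [ZMod.natCast_zmod_val, ← Int.cast_natCast] at this
  have lc : Lc χ := ⟨_, H853.isOpen_cyc (m := p), fun g w a => by
    rw [ad, (hχ w 1 0 (by rw [show cyc p w = 1 from a]; simp)).1 (by simp), add_zero]⟩
  have ci : ∀ {q : ℕ} {R : Ideal (𝓞 Qb)}, Ov q R → q ≠ p → ∀ i, Inert R i → χ i = 0 :=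
    fun o n i h => (hχ i _ 0 (cq (k := 1) o n fun x => by simpa using h x)).1 (by simp)
  have l0' : ∀ {R : Subgroup GQ} {k : GQ → ZMod (2 ^ (m + 1))}, Lc k → k 1 = 0 →
      ∃ W : Subgroup GQ, IsOpen (W : Set GQ) ∧ ∀ w ∈ W, w ∈ R → k w = 0 :=
    fun ⟨W, a, b⟩ h => ⟨W, a, fun w n _ => by rw [← one_mul w, b 1 w n, h]⟩
  have c1 : χ 1 = 0 := by simpa using ad 1 1
  have fb' : ∀ x : 𝓞 Qb, f • x - x ^ (2 ^ (m + 1) * (2 * e) + 1) ∈ Q p := he ▸ fb
  choose r r1 r2 using fun l (a : l ∈ L) => (hL l a).2.2.2.1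
  have r0 : ∀ l a, r l a ≠ 0 := fun l a n => (Nat.cast_ne_zero (R := Qb)).2 (hL l a).1.1.ne_zero
    (by rw [← r1 l a, n, zero_pow (by positivity)])
  have np : ∀ l ∈ L, l ≠ p := fun l a n => pL (n ▸ a)
  have cf' : ∀ l ∈ L, χ (φ l) = κ l f := fun l a =>
    (hχ _ l _ (cq (hL l a).1 (np l a) (hL l a).2.2.1)).1 (by
      simpa using kum_q (ov p hp) (z := z) (nd hp (hL l a).1.1 (np l a).symm) (r1 l a) fb' (r2 l a f))
  have od : ∀ l ∈ L, Odd (χ (φ l)).val := fun l a => by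
    rw [cf' l a, ← Nat.not_even_iff_odd]
    rintro ⟨j, hj⟩
    refine zero_ne_one (((nu_eq_zero (w := r l a ^ 2 ^ m) (by
      rw [← pow_mul, ← pow_succ, r1]; rfl)).2 ?_).symm.trans (fn l a))
    rw [map_pow, r2, mul_pow, hj, ← two_mul, ← pow_mul, mul_right_comm, ← pow_succ', pow_mul,
      hζ.pow_eq_one, one_pow, one_mul]
  have : ∀ l, ∃ b, l ∈ L → b * χ (φ l) = u l (φ l) := fun l => by
    by_cases a : l ∈ L
    · obtain ⟨b, hb⟩ := ((ZMod.isUnit_iff_coprime (χ (φ l)).val (2 ^ (m + 1))).2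
        ((od l a).coprime_two_right.pow_right _)).exists_left_inv
      rw [ZMod.natCast_zmod_val] at hb
      exact ⟨u l (φ l) * b, fun _ => by rw [mul_assoc, hb, mul_one]⟩
    · exact ⟨0, fun n => absurd n a⟩
  choose b hb using this
  have kc : ∀ l ∈ L, Co (κ l) := fun l a => kum_co hζ (r0 l a) (r2 l a)
  have ki : ∀ (T : Finset ℕ) q, T ⊆ L → q.Prime → q ≠ 2 → q ∉ T → ∀ i, Inert (Q q) i →
      ∑ l ∈ T, b l * κ l i = 0 := fun T q le hq n2 n i hi => Finset.sum_eq_zero fun l a => by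
    rw [kum_in hζ (ov q hq) n2 (nd hq (hL l (le a)).1.1 fun k => n (k ▸ a)) (r1 l (le a)) hi
      (r2 l _ i), mul_zero]
  have ur : ∀ (T : Finset ℕ) q, T ⊆ L → q.Prime → q ≠ 2 → q ≠ p → q ∉ T →
      B2 cy (dec (Q q)) (cu χ fun g => ∑ l ∈ T, b l * κ l g) := fun T q le hq n2 n n' => by
    have co := co_sum T b fun l a => kc l (le a)
    have := ar4 c q hq n2 _ (cyc_eq ▸ cu_z2 ad lc co) fun g _ h _ i hi => by
      rw [I_prime c hq, cP] at hi
      simp only [cu, ad, ec_mul, co.co, ci (ov q hq) n i hi, ec_in (ov q hq) n2 hi,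
        ki T q le hq n2 n' i hi, add_zero, mul_one, mul_zero, sub_self, zero_mem, and_self]
    rwa [cyc_eq, D_prime c hq, cP] at this
  have co := co_sum L b kc
  set k : GQ → ZMod (2 ^ (m + 1)) := fun g => ∑ l ∈ L, b l * κ l g with hk
  have z0 : ∀ R : Subgroup GQ, B2 cy R y → (∀ g ∈ R, χ g = 0) →
      B2 cy R fun g h => y g h - cu χ k g h := fun R a h =>
    b2_sub' a (b2_zero (x := cu χ k) fun g hg j _ => by simp [cu, vv, h g hg]) (by simp)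
  have loc : ∀ v, Pl v → v ≠ p → B2 cy (c.D v) fun g h => y g h - cu χ k g h := fun v hv n => by
    rcases hv with rfl | hv
    · rw [D_zero, cw]
      refine z0 _ h0 fun g hg => ?_
      obtain ⟨cj, hc⟩ := G2.ex_conj w.embedding
      rw [← w.mk_embedding, ← SetLike.mem_coe, G2.st_conj hc] at hg
      rcases hg with rfl | rfl
      · exact c1
      · exact (hχ _ (-1) 0 (by rw [H853.cyc_conj ⟨_, hc⟩]; simp)).1 (by simp [pow_mul])
    rw [D_prime c hv, cP]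
    by_cases n2 : v = 2
    · subst n2
      refine z0 _ ((q2 2 hv).2 fun a => (hL 2 a).2.1 rfl) (gen0 (ov 2 hv) (cP ▸ c.fb 2 hv)
        (fun g _ j _ => ad g j) (l0' lc c1) (ci (ov 2 hv) n) ?_)
      exact (hχ _ (2 : ℕ) 0 (cq (ov 2 hv) n (cP ▸ c.fb 2 hv))).1 (by
        simpa using kum_q (ov p hp) (z := z) (j := 0) (nd hp hv n.symm) hs fb' (by simpa using fs))
    by_cases a : v ∈ L
    swap
    · exact b2_sub' ((q2 v hv).2 a) (ur L v le_rfl hv n2 n a)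
        fun g _ h _ => O_of (zero_mem _) (sub_self _)
    obtain ⟨o, -, f1, -, u1, ⟨W, hW, u2⟩, u3, u4⟩ := hL v a
    have u5 := ur (L.erase v) v (L.erase_subset v) hv n2 n (L.notMem_erase v)
    rw [q1 v a] at u5 ⊢
    obtain ⟨W', hW', u6⟩ := l0' (R := dec (P v)) lc c1
    have u7 := gen0 (f := fun g => u v g - b v * χ g) o f1
      (fun g hg j hj => by rw [u1 g hg j hj, ad]; ring)
      ⟨W ⊓ W', hW.inter hW', fun x a a' => by rw [u2 x a.1 a', u6 x a.2 a']; ring⟩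
      (fun i hi => by rw [u3 i hi, ci o n i hi]; ring) (sub_eq_zero.2 (hb v a).symm)
    refine b2_sub' u4 u5 fun g hg j _ => mem_of (N := m + 1) ((u v g).val * (cz g * (κ v j).val) +
      (χ g * (ec _ g * ∑ l ∈ L.erase v, b l * κ l j)).val - (χ g * (ec _ g * k j)).val) ?_ ?_
    · simp only [map_sub, map_add, map_mul, map_natCast, ZMod.natCast_zmod_val, hk]
      rw [← ec, sub_eq_zero.1 (u7 g hg), ← Finset.add_sum_erase L _ a]
      ring
    · simp only [cu, vv, cy_apply]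
      push_cast
      ring
  let rd := ZMod.castHom (dvd_pow_self 2 m.succ_ne_zero) (ZMod 2)
  let ψ : GQ →* K := ⟨⟨fun g => Aq.sg (rd (χ g)), by rw [c1, map_zero, Aq.sg_zero]⟩,
    fun g h => show Aq.sg (rd (χ (g * h))) = Aq.sg (rd (χ g)) * Aq.sg (rd (χ h)) by
      rw [ad, map_add, Aq.sg_add]⟩
  have qc : Ga.Qc ψ := ⟨fun g => Aq.sg_sq _, (lc.lc.comp fun a => Aq.sg (rd a)).continuous⟩
  have rv : ∀ a, (rd a).val = a.val % 2 := fun a => by
    rw [← ZMod.natCast_zmod_val a, map_natCast, ZMod.val_natCast, ZMod.natCast_zmod_val]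
  have pt : ψ (c.τ p) = -1 := (qc.sq _).resolve_left fun n => by
    rw [τ_prime c hp p2] at n
    obtain ⟨i, i1, i2⟩ := H297.L3.inert_cyc (m := p) (k := 1) (m' := 1) hp (by simp) (by simp)
      (ov p hp).2.1 (ov p hp).2.2 (cyc p (φ l0)) (Nat.modEq_one)
    obtain ⟨W, hW, a⟩ := l0' (R := ⊤) lc c1
    have : Aq.sg (rd (χ i)) = 1 := tam0 (H := ψ.ker) (ov p hp) p2 (cP ▸ (c.ta p hp p2).1)
      (c.ta p hp p2).2 (mem_nhdsWithin_of_mem_nhds (Filter.mem_of_superset (hW.mem_nhds W.one_mem)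
        fun x b => show Aq.sg (rd (χ x)) = 1 by rw [a x b trivial, map_zero, Aq.sg_zero])) n
      (fun j _ => by rcases qc.sq j with a | a <;> simp [MonoidHom.mem_ker, a]) i1
    have k := cq (hL l0 hl0).1 (np l0 hl0) (hL l0 hl0).2.2.1
    rw [(hχ i l0 _ (i2 ▸ k)).1 ((hχ _ l0 _ k).2 rfl), Aq.sg_eq_one, ← ZMod.val_eq_zero, rv,
      Nat.odd_iff.1 (od l0 hl0)] at this
    exact one_ne_zero this
  have e1 : ∀ g ∈ dec (Q p), ec (m + 1) g = 1 := fun g hg => ec_one hζ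
    (frob0 (H := MulAction.stabilizer GQ ζ) (ov p hp) fb (mem_nhdsWithin_of_mem_nhds
      ((G2.stab_open ζ).mem_nhds (one_mem _))) (fun i hi => show i ζ = ζ by
        rw [cz_spec i hζ.pow_eq_one, ← ec, ec_in (ov p hp) p2 hi,
          ← Nat.cast_one (R := ZMod (2 ^ (m + 1))), pw_nat hζ.pow_eq_one, pow_one]) (fx ζ hζ.pow_eq_one) hg)
  have st : ∀ j : ℕ, (2 ^ (j + 1) : ℕ) * k f = 0 → (2 ^ j : ℕ) * k f = 0 := fun j hj => by
    have hf : ∀ g ∈ dec (Q p), 2 * (2 ^ j * vv (k g)) ∈ O := fun g hg => O_of ((vv_mul _ _).2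
      (gen0 (f := fun g => ((2 ^ (j + 1) : ℕ) : ZMod (2 ^ (m + 1))) * k g) (ov p hp) fb
        (fun g hg i _ => by rw [co.co, e1 g hg]; ring)
        ((l0' co.lc co.one).imp fun W a => ⟨a.1, fun x b b' => by rw [a.2 x b b', mul_zero]⟩)
        (fun i hi => by rw [show k i = 0 from ki L p le_rfl hp p2 pL i hi, mul_zero]) hj g hg))
      (by push_cast; ring)
    have := (ar3 c).rcp {p} (fun g h => 2 ^ j * (y g h - cu χ k g h)) (fun _ => ψ)
      (fun _ g => 2 ^ j * vv (k g)) (cyc_eq ▸ pow_z2 (z2_sub' hy (cu_z2 ad lc co)) j)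
      (fun v hv n => cyc_eq ▸ pow_b2 (loc v hv (by simpa using n)) j) fun q hq => by
        rw [Finset.mem_singleton.1 hq, cyc_eq, D_prime c hp, I_prime c hp, cP]
        refine ⟨hp, p2, qc, pt, ⟨(co.lc.lc.comp fun a => 2 ^ j * vv a).continuous.continuousOn, hf,
          fun g hg i _ => ?_, fun i hi => ?_⟩, b2_sub' (pow_b2 ((q2 p hp).2 pL) j)
            (b2_zero (x := fun _ _ => 0) (by simp)) fun g hg i hi => ?_⟩
        · refine mem_of (N := m + 1) ((2 ^ j : ℕ) * ((k (g * i)).val - (k g).val - (k i).val)) ?_ ?_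
          · simp only [map_sub, map_mul, map_natCast, ZMod.natCast_zmod_val, co.co, e1 g hg]
            ring
          · simp only [vv, PadicInt.coe_mul, PadicInt.coe_sub, PadicInt.coe_natCast]
            push_cast
            ring
        · simp [show k i = 0 from ki L p le_rfl hp p2 pL i hi, vv]
        · have a1 := mem_of (N := m + 1) (x := (χ g).val * vv (k i) - vv (χ g * k i))
            ((χ g).val * (k i).val - (χ g * k i).val) (by simp) (by simp only [vv]; push_cast; ring)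
          have a2 : (2⁻¹ * (1 - ψ g) : K) = ((χ g).val % 2 : ℕ) := by
            show 2⁻¹ * (1 - Aq.sg (rd (χ g))) = _
            rw [← rv]
            rcases Aq.z2 (rd (χ g)) with a | a <;> rw [a]
            · simp [Aq.sg_zero]
            · rw [Aq.sg_one, ZMod.val_one]; norm_num
          have a3 : ((χ g).val : K) = 2 * ((χ g).val / 2 : ℕ) + ((χ g).val % 2 : ℕ) := by
            exact_mod_cast (Nat.div_add_mod _ 2).symm
          refine O_of (sub_mem (O_mul (O_pow j) a1) (O_mul (x := ((χ g).val / 2 + (χ g).val % 2 : ℕ))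
            (natCast_mem (PadicInt.subring 2) _) (hf i hi))) ?_
          rw [a2, cu, e1 g hg, one_mul, Nat.cast_add]
          linear_combination (-2 ^ j * vv (k i)) * a3
    rw [Finset.sum_singleton, F_prime c hp, cf] at this
    exact (vv_mul _ _).1 (O_of this (by push_cast; ring))
  have fin : ∀ i j : ℕ, (2 ^ (j + i) : ℕ) * k f = 0 → (2 ^ j : ℕ) * k f = 0 := fun i => by
    induction i with
    | zero => exact fun _ h => h
    | succ i ih => exact fun j h => ih j (st _ h)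
  have := fin (m + 1) 0 (by rw [zero_add, ZMod.natCast_self, zero_mul])
  rw [pow_zero, Nat.cast_one, one_mul] at this
  rw [← this]
  exact Finset.sum_congr rfl fun l a => by rw [← hb l a, cf' l a]

end Vale.Agent.P004F.Rc
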