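import Vale.Agent.P004S.A.Div
import Vale.Agent.P004F.Rec.St

/-!
# P004F, block REC: Kummer cocycles and tame characters at level `2 ^ n` (helper26)
-/

set_option linter.all false

noncomputable section

namespace Vale.Agent.P004F.Rc

open NumberField Topology Filter
open Vale.Agent.P022 Vale.Agent.P022K
open Vale.Agent.P027M.S (Inert)
open Vale.Agent.P022D.W (dec inP_le_dec conj_inP phi_mem dec_gen)
open Vale.Agent.P022.H443 (inP)
open Vale.Agent.P022E.GW (Ov Fb Gn)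
open Vale.Agent.P004S.Ga (K O mem_O d2 d3 Z2 B2)
open Vale.Agent.P004S.Aq

/-- the inverse of `2 ^ n` -/
def hn (n : ℕ) : K := ((2 : K) ^ n)⁻¹

theorem hn_mul (n : ℕ) : 2 ^ n * hn n = 1 := mul_inv_cancel₀ (pow_ne_zero _ two_ne_zero)

theorem O_nat (m : ℕ) : (m : K) ∈ O := natCast_mem (PadicInt.subring 2) m

theorem O_pw {x : K} (h : x ∈ O) (m : ℕ) : x ^ m ∈ O := (PadicInt.subring 2).pow_mem h m

theorem lev {n : ℕ} {x : K} (h : x ∈ O) : 2 ^ n * (hn n * x) ∈ O :=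
  O_of h (by rw [← mul_assoc, hn_mul, one_mul])

/-- an element of level `n` times an element of `2 ^ n O` -/
theorem O_lv {n : ℕ} {x y : K} (hx : 2 ^ n * x ∈ O) (hy : hn n * y ∈ O) : x * y ∈ O :=
  O_of (O_mul hx hy) (by linear_combination (-(x * y)) * hn_mul n)

theorem apx (n : ℕ) {y : K} (h : y ∈ O) : ∃ m : ℕ, hn n * (y - m) ∈ O := by
  obtain ⟨a, rfl⟩ := O_ex h
  refine ⟨(PadicInt.toZModPow n a).val, ?_⟩
  have := (dv_iff n (a - (PadicInt.toZModPow n a).val)).1 (by simp)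
  rwa [PadicInt.coe_sub, PadicInt.coe_natCast] at this

theorem nat_iff (n m : ℕ) : hn n * m ∈ O ↔ 2 ^ n ∣ m := by
  rw [← ZMod.natCast_eq_zero_iff, ← map_natCast (PadicInt.toZModPow (p := 2) n), dv_iff,
    PadicInt.coe_natCast, hn]

theorem unit {x : K} (h : x ∈ O) (h2 : 2⁻¹ * x ∉ O) : ∃ y ∈ O, x * y = 1 := by
  obtain ⟨a, rfl⟩ := O_ex h
  have : IsUnit a := by
    by_contra e
    have m : a ∈ IsLocalRing.maximalIdeal ℤ_[2] := e
    rw [PadicInt.maximalIdeal_eq_span_p, Ideal.mem_span_singleton] at m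
    obtain ⟨c, rfl⟩ := m
    exact h2 (O_of c.2 (by rw [PadicInt.coe_mul, PadicInt.coe_natCast]; push_cast; field_simp))
  obtain ⟨b, hb⟩ := this.exists_right_inv
  exact ⟨b, b.2, by rw [← PadicInt.coe_mul, hb, PadicInt.coe_one]⟩

theorem O_odd {l : ℕ} (hl : Odd l) {x : K} (h : l * x ∈ O) : x ∈ O := by
  obtain ⟨y, hy, e⟩ := unit (O_nat l) fun m => by
    have := (nat_iff 1 l).1 (by simpa [hn] using m)
    exact (Nat.not_even_iff_odd.2 hl) (even_iff_two_dvd.2 (by simpa using this))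
  exact O_of (O_mul hy h) (by linear_combination (-x) * e)

/-- the exponential -/
def ee (n : ℕ) : K → Qb := (ex_e n).choose

variable {n : ℕ} {x y : K}

theorem ee_add (hx : 2 ^ n * x ∈ O) (hy : 2 ^ n * y ∈ O) : ee n (x + y) = ee n x * ee n y :=
  (ex_e n).choose_spec.1 x y hx hy

theorem ee_one (hx : 2 ^ n * x ∈ O) : ee n x = 1 ↔ x ∈ O := (ex_e n).choose_spec.2.1 x hx

theorem ee_cy (g : GQ) (hx : 2 ^ n * x ∈ O) : g (ee n x) = ee n (cy g * x) :=
  (ex_e n).choose_spec.2.2 g x hx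

theorem ee_zero : ee n 0 = 1 := (ee_one (by simp)).2 (zero_mem _)

theorem ee_pow (hx : 2 ^ n * x ∈ O) (m : ℕ) : ee n (m * x) = ee n x ^ m := by
  induction m with
  | zero => simp [ee_zero]
  | succ m ih =>
    rw [pow_succ, ← ih, ← ee_add (O_of (O_mul (O_nat m) hx) (by ring)) hx]
    congr 1; push_cast; ring

theorem ee_root (hx : 2 ^ n * x ∈ O) : ee n x ^ 2 ^ n = 1 := by
  rw [← ee_pow hx, ee_one (O_of (O_mul (O_pow n) hx) (by push_cast; ring))]
  exact O_of hx (by push_cast; ring)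

theorem ee_ne (hx : 2 ^ n * x ∈ O) : ee n x ≠ 0 := fun e => by
  have := ee_root hx
  rw [e, zero_pow (by positivity)] at this
  exact zero_ne_one this

theorem ee_eq (hx : 2 ^ n * x ∈ O) (hy : 2 ^ n * y ∈ O) : ee n x = ee n y ↔ x - y ∈ O := by
  have h : 2 ^ n * (x - y) ∈ O := O_of (sub_mem hx hy) (by ring)
  have h1 := ee_add h hy
  rw [sub_add_cancel] at h1
  rw [← ee_one h, h1, mul_eq_right₀ (ee_ne hy)]

theorem ee_prim (n : ℕ) : IsPrimitiveRoot (ee n (hn n * 1)) (2 ^ n) :=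
  ⟨ee_root (lev O_one), fun m h => by
    rw [← ee_pow (lev O_one), ee_one (O_of (lev (n := n) (O_nat m)) (by ring))] at h
    exact (nat_iff n m).1 (O_of h (by ring))⟩

theorem ee_onto {η : Qb} (h : η ^ 2 ^ n = 1) : ∃ m : ℕ, η = ee n (hn n * m) := by
  obtain ⟨m, -, rfl⟩ := (ee_prim n).eq_pow_of_pow_eq_one h
  exact ⟨m, by rw [← ee_pow (lev O_one)]; congr 1; ring⟩

/-- the meaning of `Cy` -/
theorem cy_iff {g : GQ} {k : ℕ} : Cy n g k ↔ hn n * (cy g - k) ∈ O := by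
  have e : ∀ m : ℕ, g (ee n (hn n * m)) = ee n (hn n * m) ^ k ↔ hn n * (cy g - k) * m ∈ O :=
    fun m => by
      rw [ee_cy g (lev (O_nat m)), ← ee_pow (lev (O_nat m)),
        ee_eq (O_of (lev (n := n) (O_mul (O_cy g) (O_nat m))) (by ring))
          (O_of (lev (n := n) (O_mul (O_nat k) (O_nat m))) (by ring))]
      exact iff_of_eq (congrArg (· ∈ O) (by ring))
  refine ⟨fun h => by simpa using (e 1).1 (h _ (ee_root (lev (O_nat 1)))), fun h ζ hζ => ?_⟩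
  obtain ⟨m, rfl⟩ := ee_onto hζ
  exact (e m).2 (O_mul h (O_nat m))

theorem lc_act (b : Qb) : IsLocallyConstant fun g : GQ => g b :=
  (IsLocallyConstant.iff_eventually_eq _).2 fun g => by
    filter_upwards [((G2.stab_open b).preimage (f := fun j : GQ => g⁻¹ * j)
      (by fun_prop)).eventually_mem (show g ∈ _ by simp)] with j h
    have := congrArg g (show (g⁻¹ * j) b = b from h)
    rwa [← AlgEquiv.mul_apply, mul_inv_cancel_left] at this

/-- `κ` is the Kummer cocycle of `β` -/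
structure Km (n : ℕ) (β : Qb) (κ : GQ → K) : Prop where
  ne : β ≠ 0
  cont : Continuous κ
  int : ∀ g, κ g ∈ O
  act : ∀ g, g β = ee n (hn n * κ g) * β

theorem ex_km {β : Qb} (h0 : β ≠ 0) (h : ∀ g : GQ, g (β ^ 2 ^ n) = β ^ 2 ^ n) :
    ∃ κ, Km n β κ := by
  classical
  let F : Qb → ℕ := fun γ => if e : ∃ m : ℕ, γ = ee n (hn n * m) * β then e.choose else 0
  refine ⟨fun g => F (g β), h0, ((lc_act β).comp fun γ => (F γ : K)).continuous,
    fun g => O_nat _, fun g => ?_⟩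
  have e : ∃ m : ℕ, g β = ee n (hn n * m) * β :=
    (ee_onto (η := g β / β) (by rw [div_pow, ← map_pow, h, div_self (pow_ne_zero _ h0)])).imp
      fun m hm => by rw [← hm, div_mul_cancel₀ _ h0]
  simp only [F, dif_pos e]
  exact e.choose_spec

namespace Km

variable {β β' : Qb} {κ κ' : GQ → K}

theorem coc (h : Km n β κ) (g j : GQ) : hn n * (κ (g * j) - κ g - cy g * κ j) ∈ O := by
  have a : 2 ^ n * (cy g * (hn n * κ j)) ∈ O := O_of (O_mul (O_cy g) (lev (n := n) (h.int j))) (by ring)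
  have e := h.act (g * j)
  rw [AlgEquiv.mul_apply, h.act j, map_mul, ee_cy g (lev (h.int j)), h.act g, ← mul_assoc,
    ← ee_add a (lev (h.int g))] at e
  exact O_of ((ee_eq (lev (h.int _)) (O_of (add_mem a (lev (n := n) (h.int g))) (by ring))).1
    (mul_right_cancel₀ h.ne e).symm) (by ring)

theorem fix (h : Km n β κ) (g : GQ) : g β = β ↔ hn n * κ g ∈ O := by
  rw [h.act g, mul_eq_right₀ h.ne, ee_one (lev (h.int g))]

theorem one : Km n 1 fun _ => 0 :=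
  ⟨one_ne_zero, continuous_const, fun _ => zero_mem _, fun g => by simp [ee_zero]⟩

theorem mul (h : Km n β κ) (h' : Km n β' κ') : Km n (β * β') fun g => κ g + κ' g :=
  ⟨mul_ne_zero h.ne h'.ne, h.cont.add h'.cont, fun g => add_mem (h.int g) (h'.int g), fun g => by
    rw [map_mul, h.act g, h'.act g, mul_add, ee_add (lev (h.int g)) (lev (h'.int g))]; ring⟩

theorem pow (h : Km n β κ) (m : ℕ) : Km n (β ^ m) fun g => m * κ g :=
  ⟨pow_ne_zero _ h.ne, continuous_const.mul h.cont, fun g => O_mul (O_nat m) (h.int g), fun g => by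
    rw [map_pow, h.act g, mul_pow, ← ee_pow (lev (h.int g)), mul_left_comm]⟩

theorem prod {ι : Type} (s : Finset ι) {β : ι → Qb} {κ : ι → GQ → K}
    (h : ∀ i ∈ s, Km n (β i) (κ i)) : Km n (∏ i ∈ s, β i) fun g => ∑ i ∈ s, κ i g := by
  classical
  induction s using Finset.induction_on with
  | empty => simpa using one
  | insert a s ha ih =>
    simp only [Finset.prod_insert ha, Finset.sum_insert ha]
    exact (h a (Finset.mem_insert_self _ _)).mul (ih fun i hi => h i (Finset.mem_insert_of_mem hi))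

end Km

variable {l : ℕ} {P : Ideal (𝓞 Qb)}

theorem pw_not (h : Ov l P) (hl : l ≠ 2) (n : ℕ) : ((2 ^ n : ℕ) : 𝓞 Qb) ∉ P := fun m =>
  G2.p_notMem (p := 2) h hl (h.2.1.mem_of_pow_mem n (by exact_mod_cast m))

theorem int_mem (h : Ov l P) (d : ℤ) : (d : 𝓞 Qb) ∈ P ↔ (l : ℤ) ∣ d :=
  ⟨H20.dvd_of_mem h.1 h.2.1 h.2.2, fun ⟨c, e⟩ => by
    rw [e]; push_cast; exact P.mul_mem_right _ h.2.2⟩

/-- Euler's criterion: `q = 1` for inertia, `q = l` for a Frobenius element -/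
theorem eul (h : Ov l P) (hl : l ≠ 2) {β : Qb} {b m : ℕ} (hb : β ^ 2 ^ n = b) (nd : ¬ l ∣ b)
    {g : GQ} (hg : ∀ x : 𝓞 Qb, g • x - x ^ (2 ^ n * m + 1) ∈ P) :
    g β = β ↔ (b : ZMod l) ^ m = 1 := by
  have b0 : (b : Qb) ≠ 0 := Nat.cast_ne_zero.2 fun e => nd (e ▸ dvd_zero _)
  have β0 : β ≠ 0 := fun e => b0 (by rw [← hb, e, zero_pow (by positivity)])
  have hη : (g β / β) ^ 2 ^ n = 1 := by rw [div_pow, ← map_pow, hb, map_natCast, div_self b0]
  let y : 𝓞 Qb := ⟨β, IsIntegral.of_pow (n := 2 ^ n) (by positivity) (by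
    rw [hb]; exact (b : 𝓞 Qb).2)⟩
  let η : 𝓞 Qb := ⟨g β / β, IsIntegral.of_pow (n := 2 ^ n) (by positivity) (by
    rw [hη]; exact isIntegral_one)⟩
  have e1 : y ^ 2 ^ n = b := RingOfIntegers.ext hb
  have e2 : g • y = η * y := RingOfIntegers.ext (div_mul_cancel₀ _ β0).symm
  have hy : y ∉ P := fun k => nd (Int.natCast_dvd_natCast.1 ((int_mem h b).1 (by
    rw [Int.cast_natCast, ← e1]; exact Ideal.pow_mem_of_mem P k _ (by positivity))))
  have e3 : η - b ^ m ∈ P := (h.2.1.mem_or_mem (x := η - b ^ m) (y := y) (by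
    have := hg y
    rwa [e2, pow_succ, pow_mul, e1, ← sub_mul] at this)).resolve_right hy
  have e4 : (b : ZMod l) ^ m = 1 ↔ (b : 𝓞 Qb) ^ m - 1 ∈ P := by
    rw [← sub_eq_zero, show (b : 𝓞 Qb) ^ m - 1 = ((b ^ m - 1 : ℤ) : 𝓞 Qb) by push_cast; rfl,
      int_mem h, ← ZMod.intCast_zmod_eq_zero_iff_dvd]
    push_cast; rfl
  rw [e4, ← div_eq_one_iff_eq β0]
  refine ⟨fun e => ?_, fun e => congrArg Subtype.val (P022E.GW.Unr.root_inj h.2.1 (pw_not h hl n)
    (x := η) (RingOfIntegers.ext hη) (one_pow _) (by simpa using add_mem e3 e))⟩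
  rw [show η = 1 from RingOfIntegers.ext e] at e3
  simpa using neg_mem e3

theorem Km.unr (h : Ov l P) (hl : l ≠ 2) {β : Qb} {b : ℕ} (hb : β ^ 2 ^ n = b) (nd : ¬ l ∣ b)
    {κ : GQ → K} (k : Km n β κ) {g : GQ} (hg : g ∈ inP P) : hn n * κ g ∈ O :=
  (k.fix g).1 ((eul h hl hb nd (m := 0) (fun x => by simpa using hg x)).2 (pow_zero _))

theorem Km.tau (hl : l ≠ 0) {β : Qb} (hb : β ^ 2 ^ (n + 1) = l) {κ : GQ → K} (k : Km (n + 1) β κ)
    {τ : GQ} (hτ : Gn l P τ) : 2⁻¹ * κ τ ∉ O := fun e => by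
  have h1 := ((k.pow (2 ^ n)).fix τ).2 (O_of e (by rw [hn]; push_cast; field_simp; ring))
  rw [hτ.2 _ (by rw [← pow_mul, ← pow_succ, hb]), neg_eq_iff_add_eq_zero, ← two_mul] at h1
  exact mul_ne_zero two_ne_zero (pow_ne_zero _ k.ne) h1

/-- the cyclotomic character at a Frobenius element -/
theorem cy_fb (h : Ov l P) (hl : l ≠ 2) {φ : GQ} (hφ : Fb l P φ) (n : ℕ) :
    hn n * (cy φ - l) ∈ O := cy_iff.1 fun ζ hζ => by
  let z : 𝓞 Qb := ⟨ζ, IsIntegral.of_pow (n := 2 ^ n) (by positivity) (by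
    rw [hζ]; exact isIntegral_one)⟩
  have e : z ^ 2 ^ n = 1 := RingOfIntegers.ext hζ
  exact congrArg Subtype.val (P022E.GW.Unr.root_inj h.2.1 (pw_not h hl n)
    (by rw [← smul_pow', e, smul_one]) (by rw [← pow_mul, mul_comm, pow_mul, e, one_pow]) (hφ z))

/-- continuous characters modulo `O` -/
structure Ad (J : Subgroup GQ) (f : GQ → K) : Prop where
  cont : ContinuousOn f J
  add : ∀ g ∈ J, ∀ h ∈ J, f (g * h) - f g - f h ∈ O

/-- the class modulo `O` -/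
def mq : K →+ K ⧸ O := QuotientAddGroup.mk' O

theorem mq_eq {x y : K} : mq x = mq y ↔ x - y ∈ O := QuotientAddGroup.eq_iff_sub_mem

theorem mq_zero {x : K} : mq x = 0 ↔ x ∈ O := QuotientAddGroup.eq_zero_iff x

namespace Ad

variable {J J' : Subgroup GQ} {f f' : GQ → K} {g j : GQ}

theorem mono (h : Ad J f) (e : J' ≤ J) : Ad J' f :=
  ⟨h.cont.mono e, fun g hg j hj => h.add g (e hg) j (e hj)⟩

theorem one (h : Ad J f) : f 1 ∈ O := by
  simpa using h.add 1 J.one_mem 1 J.one_mem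

theorem mul (h : Ad J f) (hg : g ∈ J) (hj : j ∈ J) : mq (f (g * j)) = mq (f g) + mq (f j) := by
  rw [← map_add, mq_eq]; exact O_of (h.add g hg j hj) (by ring)

theorem lv (h : Ad J f) : ∃ W, G2.Lv ∅ W ∧ ∀ w ∈ J, w ∈ W → f w ∈ O :=
  nb (S := f ⁻¹' O) (h.cont 1 J.one_mem (O_open.mem_nhds h.one))

theorem conj (h : Ad J f) (hg : g ∈ J) (hj : j ∈ J) : f (g * j * g⁻¹) - f j ∈ O := by
  have e := h.mul (mul_mem (mul_mem hg hj) (inv_mem hg)) hg
  rw [inv_mul_cancel_right, h.mul hg hj, add_comm, add_left_inj] at e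
  exact mq_eq.1 e.symm

theorem sub (h : Ad J f) (h' : Ad J f') : Ad J fun g => f g - f' g :=
  ⟨h.cont.sub h'.cont, fun g hg j hj => O_of (sub_mem (h.add g hg j hj) (h'.add g hg j hj))
    (by ring)⟩

theorem smul (h : Ad J f) {c : K} (hc : c ∈ O) : Ad J fun g => c * f g :=
  ⟨continuousOn_const.mul h.cont, fun g hg j hj => O_of (O_mul hc (h.add g hg j hj)) (by ring)⟩

/-- the kernel -/
def ker (h : Ad J f) : Subgroup GQ where
  carrier := {g | g ∈ J ∧ f g ∈ O}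
  mul_mem' {a b} ha hb := ⟨mul_mem ha.1 hb.1,
    O_of (add_mem (add_mem (h.add a ha.1 b hb.1) ha.2) hb.2) (by ring)⟩
  one_mem' := ⟨J.one_mem, h.one⟩
  inv_mem' {a} ha := ⟨inv_mem ha.1, O_of (sub_mem (sub_mem h.one (h.add a ha.1 _ (inv_mem ha.1)))
    ha.2) (by rw [mul_inv_cancel]; ring)⟩

/-- an unramified character is determined by its value at a Frobenius element -/
theorem unr (o : Ov l P) {φ : GQ} (hφ : Fb l P φ) (h : Ad (dec P) f) (hI : ∀ i ∈ inP P, f i ∈ O)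
    (h0 : f φ ∈ O) (hg : g ∈ dec P) : f g ∈ O := by
  obtain ⟨W, hW, e⟩ := h.lv
  refine (frob0 o hφ (H := h.ker) (mem_nhdsWithin.2 ⟨W, hW.opn, W.one_mem, fun w m =>
    ⟨m.2, e w m.2 m.1⟩⟩) (fun i m => ⟨inP_le_dec m, hI i m⟩) ⟨phi_mem o.1 o.2.1 hφ, h0⟩ hg).2

theorem cyc (o : Ov l P) (hl : l ≠ 2) (h : Ad (inP P) f) {V : Subgroup GQ}
    (hV : ∀ w ∈ inP P, w ∈ V → f w ∈ O) {τ : GQ} (hτ : τ ∈ inP P) (hg : g ∈ inP P) {m : ℕ}
    (e : CH.Loc.WMod l V ((τ ^ m)⁻¹ * g)) : f g - m * f τ ∈ O := by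
  have := G2.add_cyc (F := fun g => mq (f g)) (fun a z => by
    obtain ⟨x, rfl⟩ := QuotientAddGroup.mk'_surjective O a
    exact mq_zero.2 (O_odd (o.1.odd_of_ne_two hl) (by
      rw [← nsmul_eq_mul, ← mq_zero, map_nsmul]; exact z))) (fun g j a b => h.mul a b)
    (fun w m a => mq_zero.2 (hV w a m)) hτ hg e
  rwa [← map_nsmul, mq_eq, nsmul_eq_mul] at this

/-- the Frobenius element acts on tame inertia by the `l`-th power -/
theorem frob (o : Ov l P) (hl : l ≠ 2) {φ : GQ} (hφ : Fb l P φ) (h : Ad (inP P) f)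
    (hg : g ∈ inP P) : f (φ * g * φ⁻¹) - l * f g ∈ O := by
  obtain ⟨W, hW, e⟩ := h.lv
  have := hW.nrm
  obtain ⟨k, _, _, χ, -, -, h3⟩ := CH.Loc.chi_data W hW.opn o
  have := (h3 φ hφ g hg).conj (g ^ l)⁻¹
  exact h.cyc o hl e hg (conj_inP (phi_mem o.1 o.2.1 hφ) hg) (by simpa [mul_assoc] using this)

/-- tame inertia is cyclic -/
theorem tame (o : Ov l P) (hl : l ≠ 2) (h : Ad (inP P) f) (hf : ∀ g ∈ inP P, 2 ^ n * f g ∈ O)
    {κ : GQ → K} (k : Ad (inP P) fun g => hn n * κ g) (ki : ∀ g, κ g ∈ O) (hg : g ∈ inP P)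
    (hj : j ∈ inP P) : f g * κ j - κ g * f j ∈ O := by
  obtain ⟨W, hW, e⟩ := h.lv
  obtain ⟨V, hV, e'⟩ := k.lv
  have := (hW.inf hV).nrm
  obtain ⟨s, hs, c⟩ := CH.Loc.cyc_level (W ⊓ V) (hW.inf hV).opn o
  have t : ∀ g ∈ inP P, ∃ m : ℕ, f g - m * f s ∈ O ∧ hn n * (κ g - m * κ s) ∈ O := fun g hg =>
    (c g hg).imp fun m hm => ⟨h.cyc o hl (V := W ⊓ V) (fun w a b => e w a b.1) hs hg hm,
      O_of (k.cyc o hl (V := W ⊓ V) (fun w a b => e' w a b.2) hs hg hm) (by ring)⟩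
  obtain ⟨a, a1, a2⟩ := t g hg
  obtain ⟨b, b1, b2⟩ := t j hj
  exact O_of (add_mem (sub_mem (O_mul a1 (ki j)) (O_mul b1 (ki g)))
    (sub_mem (O_mul (O_nat a) (O_lv (hf s hs) b2)) (O_mul (O_nat b) (O_lv (hf s hs) a2))))
    (by ring)

end Ad

/-- the Kummer cocycle is a character where the cyclotomic character is trivial -/
theorem Km.ad {β : Qb} {κ : GQ → K} (k : Km n β κ) {J : Subgroup GQ}
    (h : ∀ g ∈ J, hn n * (cy g - 1) ∈ O) : Ad J fun g => hn n * κ g :=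
  ⟨(continuous_const.mul k.cont).continuousOn, fun g hg j _ =>
    O_of (add_mem (k.coc g j) (O_mul (h g hg) (k.int j))) (by ring)⟩

end Vale.Agent.P004F.Rc
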