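import Vale.Agent.P004F.Rec.Cor

/-!
# P004F, block REC: the local normal form, cup products (helper26)
-/

set_option linter.all false

noncomputable section

namespace Vale.Agent.P004F.Rc

open NumberField Topology Filter
open Vale.Agent.P022 Vale.Agent.P022K
open Vale.Agent.P027M.S (Inert)
open Vale.Agent.P022D.W (dec inP_le_dec conj_inP phi_mem dec_gen)
open Vale.Agent.P022.H443 (inP)
open Vale.Agent.P022E.GW (Ov Fb Gn)
open Vale.Agent.P004S.Ga (K O mem_O d2 d3 Z2 B2)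
open Vale.Agent.P004S.Aq
open scoped Pointwise

variable {Γ D : Subgroup GQ} {N l : ℕ} {P : Ideal (𝓞 Qb)} {φ τ : GQ}

/-- a biadditive function on the group of an unramified tame place is a symbol -/
theorem nf (o : IsOpen (Γ : Set GQ)) (i : Γ.index = 2) (ov : Ov l P) (p2 : l ≠ 2)
    (ur : inP P ≤ Γ) {β : Qb} {κ : GQ → K} (k : Km (N + 1) β κ)
    (hc : ∀ g ∈ Γ ⊓ dec P, hn (N + 1) * (cy g - 1) ∈ O) {y : GQ → GQ → K}
    (hz : Z2 cy (Γ ⊓ dec P) y) (a1 : ∀ h ∈ Γ ⊓ dec P, Ad (Γ ⊓ dec P) fun g => y g h)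
    (a2 : ∀ g ∈ Γ ⊓ dec P, Ad (Γ ⊓ dec P) (y g)) (lv : ∀ g h, 2 ^ N * y g h ∈ O)
    (hτ : τ ∈ inP P) {w : ℕ} (hw : hn (N + 1) * (w * κ τ - 1) ∈ O) :
    Ad (Γ ⊓ dec P) (fun g => w * y g τ - w * y τ g) ∧
    (∀ g, 2 ^ (N + 1) * (w * y g τ - w * y τ g) ∈ O) ∧ (∀ s ∈ inP P, w * y s τ - w * y τ s ∈ O) ∧
    B2 cy (Γ ⊓ dec P) fun g j => y g j - (w * y g τ - w * y τ g) * (cy g * κ j) := by
  have le : inP P ≤ Γ ⊓ dec P := le_inf ur inP_le_dec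
  have ow := O_nat w
  have ki := k.int
  have ka := k.ad hc
  have kd : ∀ g ∈ Γ ⊓ dec P, ∀ j ∈ Γ ⊓ dec P, hn (N + 1) * (κ (g * j) - κ g - κ j) ∈ O :=
    fun g hg j hj => O_of (ka.add g hg j hj) (by ring)
  have l1 : ∀ g h, 2 ^ (N + 1) * y g h ∈ O := fun g h => O_of (O_mul O_two (lv g h)) (by ring)
  have l2 : ∀ g h, 2 ^ (N + 1) * (w * y g h) ∈ O := fun g h => O_of (O_mul ow (l1 g h)) (by ring)
  have l3 : 2 ^ (N + 1) * (2⁻¹ * (w * (w * y τ τ))) ∈ O :=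
    O_of (O_mul ow (O_mul ow (lv τ τ))) (by rw [pow_succ]; field_simp)
  have t : ∀ f : GQ → K, Ad (Γ ⊓ dec P) f → (∀ g, 2 ^ (N + 1) * f g ∈ O) → ∀ s ∈ inP P,
      f s - κ s * (w * f τ) ∈ O := fun f hf lf s hs =>
    O_of (sub_mem (O_mul ow ((hf.mono le).tame ov p2 (fun g _ => lf g) (ka.mono le) ki hs hτ))
      (O_lv (lf s) hw)) (by ring)
  have t1 := fun h hh => t _ (a1 h hh) fun g => l1 g h
  have t2 := fun g hg => t _ (a2 g hg) (l1 g)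
  have mτ := le hτ
  have ua := ((a1 τ mτ).smul ow).sub ((a2 τ mτ).smul ow)
  have ul : ∀ g, 2 ^ (N + 1) * (w * y g τ - w * y τ g) ∈ O := fun g =>
    O_of (sub_mem (l2 g τ) (l2 τ g)) (by ring)
  refine ⟨ua, ul, fun s hs => O_of (O_mul ow (sub_mem (t1 τ mτ s hs) (t2 τ mτ s hs))) (by ring),
    ?_⟩
  obtain ⟨θ, hθ⟩ : ∃ θ : GQ → K, θ = fun g =>
    -(w * y τ g) * κ g + 2⁻¹ * (w * (w * y τ τ)) * κ g ^ 2 := ⟨_, rfl⟩
  have θc : ContinuousOn θ (Γ ⊓ dec P : Subgroup GQ) := hθ ▸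
    (((continuousOn_const.mul (a2 τ mτ).cont).neg.mul k.cont.continuousOn).add
      (continuous_const.mul (k.cont.pow 2)).continuousOn)
  have θl : ∀ g, 2 ^ (N + 1) * θ g ∈ O := fun g =>
    O_of (sub_mem (O_mul l3 (O_pw (ki g) 2)) (O_mul (l2 τ g) (ki g))) (by rw [hθ]; ring)
  have key : ∀ g ∈ Γ ⊓ dec P, ∀ j ∈ Γ ⊓ dec P,
      y g j - (w * y g τ - w * y τ g) * (cy g * κ j) - d2 cy θ g j -
        (y g j - w * y g τ * κ j - κ g * (w * y τ j) + κ g * κ j * (w * (w * y τ τ))) ∈ O :=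
    fun g hg j hj => O_of (sub_mem (sub_mem (O_mul (O_lv l3 (kd g hg j hj))
      (add_mem (ki (g * j)) (add_mem (ki g) (ki j)))) (add_mem (O_mul (O_lv (ul g) (hc g hg))
        (ki j)) (O_lv (θl j) (hc g hg)))) (add_mem (add_mem (O_lv (l2 τ g) (kd g hg j hj))
          (O_lv (l2 τ j) (kd g hg j hj))) (O_mul (O_mul ow ((a2 τ mτ).add g hg j hj))
            (ki (g * j))))) (by simp only [d2, hθ]; ring)
  have l4 : 2 ^ (N + 1) * (w * (w * y τ τ)) ∈ O := O_of (O_mul ow (l2 τ τ)) (by ring)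
  refine b2_congr (b2_add (unr2 o i ov p2 (z2_sub (z2_dif hz (cup_z2 ua (fun g _ => ul g) k)) θc)
    fun g hg j hj s hs => ⟨?_, ?_⟩) ⟨θ, θc, fun g _ j _ => O_of (zero_mem _) (sub_self _)⟩)
    fun g _ j _ => O_of (zero_mem _) (by ring)
  · have ms := le hs.2
    exact O_of (add_mem (sub_mem (key _ (mul_mem hg ms) j hj) (key g hg j hj)) (add_mem (sub_mem
      (add_mem ((a1 j hj).add g hg s ms) (t1 j hj s hs.2)) (O_mul (O_mul ow (add_mem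
        ((a1 τ mτ).add g hg s ms) (t1 τ mτ s hs.2))) (ki j))) (sub_mem (O_mul (O_lv l4
          (kd g hg s ms)) (ki j)) (O_lv (l2 τ j) (kd g hg s ms))))) (by ring)
  · have ms := le hs.2
    exact O_of (add_mem (sub_mem (key g hg _ (mul_mem hj ms)) (key g hg j hj)) (add_mem (sub_mem
      (add_mem ((a2 g hg).add j hj s ms) (t2 g hg s hs.2)) (O_mul (O_mul ow (add_mem
        ((a2 τ mτ).add j hj s ms) (t2 τ mτ s hs.2))) (ki g))) (sub_mem (O_mul (O_lv l4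
          (kd j hj s ms)) (ki g)) (O_lv (l2 g τ) (kd j hj s ms))))) (by ring)

/-- generators of the group of an inert place -/
theorem Kp.gen (h : Kp N Γ l P φ τ) (o : IsOpen (Γ : Set GQ)) (i : Γ.index = 2)
    {T W : Subgroup GQ} (hW : IsOpen (W : Set GQ)) (e : ∀ w ∈ Γ, w ∈ W → w ∈ T) (h2 : φ ^ 2 ∈ T)
    (hI : inP P ≤ T) : Γ ⊓ dec P ≤ T := fun g hg => by
  obtain ⟨k, s, u, hs, hu, rfl⟩ := dec_gen h.ov.1 h.ov.2.1 h.ov.2.2 h.fb hg.2 (W ⊓ Γ) (hW.inter o)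
  have m : φ ^ k ∈ Γ := (Γ.mul_mem_cancel_left hu.2).1 ((Γ.mul_mem_cancel_right (h.ur hs)).1 hg.1)
  rcases Nat.even_or_odd' k with ⟨a, rfl | rfl⟩
  · exact mul_mem (mul_mem (e u hu.2 hu.1) (by rw [pow_mul]; exact pow_mem h2 a)) (hI hs)
  · rw [pow_succ, pow_mul] at m
    exact absurd ((Γ.mul_mem_cancel_left (pow_mem (Subgroup.sq_mem_of_index_two i φ) a)).1 m) h.out

theorem Kp.two (h : Kp N Γ l P φ τ) (i : Γ.index = 2) : φ ^ 2 ∈ Γ ⊓ dec P :=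
  ⟨Subgroup.sq_mem_of_index_two i φ, pow_mem (phi_mem h.ov.1 h.ov.2.1 h.fb) 2⟩

theorem Kp.cyc (h : Kp N Γ l P φ τ) (o : IsOpen (Γ : Set GQ)) (i : Γ.index = 2) {g : GQ}
    (hg : g ∈ Γ ⊓ dec P) : hn (N + 1) * (cy g - 1) ∈ O := by
  have p := ee_prim (N + 1)
  generalize ee (N + 1) (hn (N + 1) * 1) = ζ at p
  have e1 := cy_iff.2 (cy_fb h.ov h.ne h.fb (N + 1)) ζ p.pow_eq_one
  have m : g ζ = ζ := h.gen o i (T := MulAction.stabilizer GQ ζ) (G2.stab_open ζ) (fun _ _ m => m)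
    (show (φ ^ 2) ζ = ζ by
      obtain ⟨a, ha⟩ := h.ov.1.odd_of_ne_two h.ne
      obtain ⟨b, hb⟩ := h.dv
      rw [sq, AlgEquiv.mul_apply, e1, map_pow, e1, ← pow_mul,
        show l * l = 2 ^ (N + 1) * (b * a) + 1 by
          rw [pow_succ, mul_assoc, ← mul_assoc 2, mul_comm 2, mul_assoc b, ← mul_assoc, ← hb, ha]
          ring, pow_succ, pow_mul, p.pow_eq_one, one_pow, one_mul])
    (fun s hs => show s ζ = ζ by
      simpa using (cy_iff (k := 1)).2 (by simp [cy_in h.ov h.ne hs]) ζ p.pow_eq_one) hg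
  simpa using (cy_iff (k := 1)).1 fun η hη => by
    obtain ⟨c, -, rfl⟩ := p.eq_pow_of_pow_eq_one hη
    rw [map_pow, m, pow_one]

variable {M : Type} [AddCommGroup M] {ρ : GQ → M →+ M} {a : GQ → M} {g : GQ}

theorem Co.one (h : Co Γ ρ a) (x : M) : ρ 1 x = x := by
  obtain ⟨W, -, e⟩ := h.lc
  exact (e 1 Γ.one_mem W.one_mem).1 x

theorem Co.inv (h : Co Γ ρ a) (hg : g ∈ Γ) (x : M) : ρ g⁻¹ (ρ g x) = x := by
  rw [← h.mul _ (inv_mem hg) _ hg, inv_mul_cancel, h.one]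

theorem Co.loc (h : Co Γ ρ a) : IsLocallyConstant fun g : Γ => (ρ g, a g) := by
  obtain ⟨W, hW, e⟩ := h.lc
  refine (IsLocallyConstant.iff_eventually_eq _).2 fun g => ?_
  filter_upwards [(hW.preimage (f := fun j : Γ => (g : GQ)⁻¹ * j) (by fun_prop)).eventually_mem
    (show g ∈ _ by simp)] with j m
  have m' := mul_mem (inv_mem g.2) j.2
  have e' := e _ m' m
  rw [← mul_inv_cancel_left (g : GQ) j, h.co _ g.2 _ m', e'.2, map_zero, add_zero]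
  exact Prod.ext (AddMonoidHom.ext fun x => by rw [h.mul _ g.2 _ m', e'.1]) rfl

theorem Co.triv (h : Co Γ ρ a) (k : Kp N Γ l P φ τ) (o : IsOpen (Γ : Set GQ)) (i : Γ.index = 2)
    (t : Tr ρ P φ) (hg : g ∈ Γ ⊓ dec P) (x : M) : ρ g x = x := by
  obtain ⟨W, hW, e⟩ := h.lc
  let T : Subgroup GQ :=
    { carrier := {g | g ∈ Γ ∧ ∀ x, ρ g x = x}
      mul_mem' := fun {a b} ha hb => ⟨mul_mem ha.1 hb.1, fun x => by
        rw [h.mul a ha.1 b hb.1, hb.2, ha.2]⟩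
      one_mem' := ⟨Γ.one_mem, h.one⟩
      inv_mem' := fun {a} ha => ⟨inv_mem ha.1, fun x => by
        conv_lhs => rw [← ha.2 x]
        exact h.inv ha.1 x⟩ }
  exact (k.gen o i (T := T) hW (fun w m n => ⟨m, (e w m n).1⟩) ⟨(k.two i).1, t.1⟩
    (fun s hs => ⟨k.ur hs, t.2 s hs⟩) hg).2 x

theorem Co.cj (h : Co Γ ρ a) (hg : g ∈ Γ) {d : GQ} (hd : d ∈ Γ) :
    a d = ρ g⁻¹ (a (g * d * g⁻¹) + ρ (g * d * g⁻¹) (a g) - a g) := by
  rw [← h.co _ (mul_mem (mul_mem hg hd) (inv_mem hg)) g hg, inv_mul_cancel_right, h.co g hg d hd,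
    add_sub_cancel_left, h.inv hg]

theorem Co.cj' (h : Co Γ ρ a) (hg : g ∈ Γ) {d : GQ} (hd : d ∈ Γ) (x : M) :
    ρ g⁻¹ (ρ (g * d * g⁻¹) x) = ρ d (ρ g⁻¹ x) := by
  rw [h.mul _ (mul_mem hg hd) _ (inv_mem hg), h.mul g hg d hd, h.inv hg]

theorem Tv.conj (h : Co Γ ρ a) (hg : g ∈ Γ) (t : Tv (Γ ⊓ dec (g • P)) ρ a) :
    Tv (Γ ⊓ dec P) ρ a := by
  obtain ⟨m, e⟩ := t
  refine ⟨ρ g⁻¹ (m + a g), fun d hd => ?_⟩
  rw [h.cj hg hd.1, e _ ⟨Γ.mul_mem (Γ.mul_mem hg hd.1) (inv_mem hg), (GW.Pl.dec_iff _ _).2 (by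
    rw [mul_smul, inv_smul_smul, mul_smul, (GW.Pl.dec_iff _ _).1 hd.2])⟩, ← h.cj' hg hd.1,
    ← map_sub, map_add]
  congr 1
  abel

theorem Ur.conj (h : Co Γ ρ a) (hg : g ∈ Γ) (t : Ur (Γ ⊓ inP (g • P)) ρ a) :
    Ur (Γ ⊓ inP P) ρ a := fun d hd => by
  obtain ⟨e1, e2⟩ := t _ ⟨Γ.mul_mem (Γ.mul_mem hg hd.1) (inv_mem hg), GW.Pl.inert_conj hd.2 g⟩
  refine ⟨fun x => ?_, by rw [h.cj hg hd.1, e1, e2, zero_add, sub_self, map_zero]⟩
  conv_lhs => rw [← h.inv hg x, ← h.cj' hg hd.1, e1, h.inv hg]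

theorem ex_F {A : Type} [AddCommGroup A] {x : A} (h : 2 ^ N • x = 0) (h0 : x ≠ 0) :
    ∃ F : A →+ K ⧸ O, F x ≠ 0 := by
  obtain ⟨c, hc⟩ := CharacterModule.exists_character_apply_ne_zero_of_ne_zero h0
  let ι := QuotientAddGroup.map (AddSubgroup.zmultiples (1 : ℚ)) O (Rat.castHom K).toAddMonoidHom
    (AddSubgroup.zmultiples_le.2 (O_of O_one Rat.cast_one))
  refine ⟨ι.comp c, fun e => hc ?_⟩
  obtain ⟨q, hq⟩ := QuotientAddGroup.mk_surjective (c x)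
  have e1 : (q : K) ∈ O := mq_zero.1 ((congrArg ι hq).trans e)
  obtain ⟨k, hk⟩ : 2 ^ N • q ∈ AddSubgroup.zmultiples (1 : ℚ) :=
    (QuotientAddGroup.eq_zero_iff _).1 (by
      rw [QuotientAddGroup.mk_nsmul, hq, ← map_nsmul, h, map_zero])
  replace hk : (k : ℚ) = 2 ^ N * q := by simpa using hk
  have e2 := (dv_iff N k).2 (O_of e1 (by
    rw [PadicInt.coe_intCast, ← Rat.cast_intCast, hk]; push_cast; field_simp))
  rw [map_intCast, ZMod.intCast_zmod_eq_zero_iff_dvd] at e2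
  obtain ⟨j, rfl⟩ := e2
  rw [← hq]
  refine (QuotientAddGroup.eq_zero_iff _).2 ⟨j, mul_left_cancel₀ (pow_ne_zero N two_ne_zero) ?_⟩
  simpa using hk

end Vale.Agent.P004F.Rc
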